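import Vale.Agent.P139.BU.Core
import Vale.Agent.P139.H201.Wiener3

/-!
# P139 / H305 : Fourier-side sup bounds

`FB k u S` : `u` is integrable and `(1 + ‖ξ‖) ^ k * ‖𝓕 u ξ‖ ≤ S` for all `ξ`.
Multiplication by functions of the Wiener class, first order derivatives, and one step of
interior elliptic regularity (gain of one power).
-/

open MeasureTheory Real FourierTransform Filter Topology Metric
open scoped ContDiff

namespace Vale.Agent.P139.H305

open Vale.Agent.P139.BU Vale.Agent.P139.H201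

variable {d : ℕ}

/-- Fourier-side sup bound. -/
def FB (k : ℕ) (u : E d → ℂ) (S : ℝ) : Prop :=
  Integrable u ∧ ∀ ξ, (1 + ‖ξ‖) ^ k * ‖𝓕 u ξ‖ ≤ S

lemma FB.nonneg {k : ℕ} {u : E d → ℂ} {S : ℝ} (h : FB k u S) : 0 ≤ S :=
  le_trans (by positivity) (h.2 0)

lemma FB.mono {k : ℕ} {u : E d → ℂ} {S S' : ℝ} (h : FB k u S) (hS : S ≤ S') : FB k u S' :=
  ⟨h.1, fun ξ => (h.2 ξ).trans hS⟩

lemma norm_fourier_le {u : E d → ℂ} (ξ : E d) : ‖𝓕 u ξ‖ ≤ ∫ x, ‖u x‖ := by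
  rw [Real.fourier_eq]
  refine (norm_integral_le_integral_norm _).trans (le_of_eq ?_)
  simp only [Circle.norm_smul]

lemma FB.zero {u : E d → ℂ} (h : Integrable u) : FB 0 u (∫ x, ‖u x‖) := by
  refine ⟨h, fun ξ => ?_⟩
  rw [pow_zero, one_mul]
  exact norm_fourier_le ξ

lemma fourier_add' {u v : E d → ℂ} (hu : Integrable u) (hv : Integrable v) (ξ : E d) :
    𝓕 (fun x => u x + v x) ξ = 𝓕 u ξ + 𝓕 v ξ := by
  rw [Real.fourier_eq, Real.fourier_eq, Real.fourier_eq, ← integral_add]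
  · congr 1
    ext x
    rw [smul_add]
  · exact (Real.fourierIntegral_convergent_iff ξ).2 hu
  · exact (Real.fourierIntegral_convergent_iff ξ).2 hv

lemma FB.add {k : ℕ} {u v : E d → ℂ} {S T : ℝ} (hu : FB k u S) (hv : FB k v T) :
    FB k (fun x => u x + v x) (S + T) := by
  refine ⟨hu.1.add hv.1, fun ξ => ?_⟩
  rw [fourier_add' hu.1 hv.1]
  calc (1 + ‖ξ‖) ^ k * ‖𝓕 u ξ + 𝓕 v ξ‖ ≤ (1 + ‖ξ‖) ^ k * (‖𝓕 u ξ‖ + ‖𝓕 v ξ‖) := by
        gcongr
        exact norm_add_le _ _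
    _ = (1 + ‖ξ‖) ^ k * ‖𝓕 u ξ‖ + (1 + ‖ξ‖) ^ k * ‖𝓕 v ξ‖ := by ring
    _ ≤ S + T := add_le_add (hu.2 ξ) (hv.2 ξ)

lemma fourier_const_mul' {u : E d → ℂ} (c : ℂ) (ξ : E d) :
    𝓕 (fun x => c * u x) ξ = c * 𝓕 u ξ := by
  rw [Real.fourier_eq, Real.fourier_eq, ← integral_const_mul]
  congr 1
  ext x
  simp only [Circle.smul_def, smul_eq_mul]
  ring

lemma FB.const_mul {k : ℕ} {u : E d → ℂ} {S : ℝ} (hu : FB k u S) (c : ℂ) :
    FB k (fun x => c * u x) (‖c‖ * S) := by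
  refine ⟨hu.1.const_mul c, fun ξ => ?_⟩
  rw [fourier_const_mul', norm_mul]
  calc (1 + ‖ξ‖) ^ k * (‖c‖ * ‖𝓕 u ξ‖) = ‖c‖ * ((1 + ‖ξ‖) ^ k * ‖𝓕 u ξ‖) := by ring
    _ ≤ ‖c‖ * S := by
      gcongr
      exact hu.2 ξ

lemma FB.of_zero {k : ℕ} : FB k (fun _ : E d => (0:ℂ)) 0 := by
  refine ⟨integrable_zero _ _ _, fun ξ => ?_⟩
  have : 𝓕 (fun _ : E d => (0:ℂ)) ξ = 0 := by
    rw [Real.fourier_eq]
    simp
  rw [this, norm_zero, mul_zero]

lemma FB.sum {k : ℕ} {ι : Type*} (s : Finset ι) {u : ι → E d → ℂ} {S : ι → ℝ}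
    (h : ∀ i ∈ s, FB k (u i) (S i)) : FB k (fun x => ∑ i ∈ s, u i x) (∑ i ∈ s, S i) := by
  classical
  induction s using Finset.induction_on with
  | empty => simpa using FB.of_zero
  | insert i s hi ih =>
    simp only [Finset.sum_insert hi]
    exact (h i (Finset.mem_insert_self i s)).add
      (ih fun j hj => h j (Finset.mem_insert_of_mem hj))

/-- multiplication by a function with integrable weighted Fourier density -/
lemma FB.mul {k : ℕ} {b u : E d → ℂ} {B S : ℝ} (hb : WienerRep k b B) (hu : FB k u S) :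
    FB k (fun x => b x * u x) (2 ^ k * B * S) := by
  obtain ⟨φ, h1, h2, h3, h4⟩ := hb
  have hS : 0 ≤ S := hu.nonneg
  have hbcont : Continuous b := by
    have : b = 𝓕⁻ φ := funext h3
    rw [this]
    rw [Real.fourierInv_eq_fourier_comp_neg]
    exact (VectorFourier.fourierIntegral_continuous Real.continuous_fourierChar
      (by exact continuous_inner) (h1.comp_neg))
  have hbbd : ∀ x, ‖b x‖ ≤ ∫ ξ, ‖φ ξ‖ := by
    intro x
    rw [h3 x, Real.fourierInv_eq]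
    refine (norm_integral_le_integral_norm _).trans (le_of_eq ?_)
    simp only [Circle.norm_smul]
  have hint : Integrable (fun x => b x * u x) := by
    refine (hu.1.bdd_mul hbcont.aestronglyMeasurable (c := ∫ ξ, ‖φ ξ‖) ?_)
    exact Eventually.of_forall hbbd
  refine ⟨hint, fun ξ => ?_⟩
  -- Fourier transform of the product as a convolution integral
  have hprod : Integrable (fun p : E d × E d =>
      (Real.fourierChar (inner ℝ p.2 p.1) • φ p.2) *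
        (Real.fourierChar (-(inner ℝ p.1 ξ)) • u p.1)) (volume.prod volume) := by
    have hb0 : Integrable (fun p : E d × E d => u p.1 * φ p.2) (volume.prod volume) :=
      hu.1.mul_prod h1
    refine hb0.mono ?_ ?_
    · have c1 : Continuous fun p : E d × E d => Real.fourierChar (inner ℝ p.2 p.1) :=
        Real.continuous_fourierChar.comp
          (by fun_prop : Continuous fun p : E d × E d => inner ℝ p.2 p.1)
      have c2 : Continuous fun p : E d × E d => Real.fourierChar (-(inner ℝ p.1 ξ)) :=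
        Real.continuous_fourierChar.comp
          (by fun_prop : Continuous fun p : E d × E d => -(inner ℝ p.1 ξ))
      exact (c1.aestronglyMeasurable.smul h1.1.comp_snd).mul
        (c2.aestronglyMeasurable.smul hu.1.1.comp_fst)
    · filter_upwards with p
      rw [norm_mul, norm_mul, Circle.norm_smul, Circle.norm_smul, mul_comm]
  have hconv : 𝓕 (fun x => b x * u x) ξ = ∫ η, φ η * 𝓕 u (ξ - η) := by
    calc 𝓕 (fun x => b x * u x) ξ
        = ∫ x, ∫ η, (Real.fourierChar (inner ℝ η x) • φ η) *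
            (Real.fourierChar (-(inner ℝ x ξ)) • u x) := by
          rw [Real.fourier_eq]
          congr 1
          ext x
          rw [h3 x, Real.fourierInv_eq, integral_mul_const]
          simp only [Circle.smul_def, smul_eq_mul]
          ring
      _ = ∫ η, ∫ x, (Real.fourierChar (inner ℝ η x) • φ η) *
            (Real.fourierChar (-(inner ℝ x ξ)) • u x) := integral_integral_swap hprod
      _ = ∫ η, φ η * 𝓕 u (ξ - η) := by
          congr 1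
          ext η
          rw [Real.fourier_eq, ← integral_const_mul]
          congr 1
          ext x
          have : -(inner ℝ x (ξ - η)) = inner ℝ η x + -(inner ℝ x ξ) := by
            rw [inner_sub_right, real_inner_comm η x]
            ring
          rw [this, AddChar.map_add_eq_mul]
          simp only [Circle.smul_def, smul_eq_mul, Circle.coe_mul]
          ring
  rw [hconv]
  have hw : Integrable (fun η : E d => 2 ^ k * ((1 + ‖η‖ ^ k) * ‖φ η‖) * S) :=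
    (h2.const_mul _).mul_const _
  have hpow : ∀ η : E d, (1 + ‖η‖) ^ k ≤ 2 ^ k * (1 + ‖η‖ ^ k) := by
    intro η
    have hmax : (1 + ‖η‖) ≤ 2 * max 1 ‖η‖ := by
      have := le_max_left (1:ℝ) ‖η‖
      have := le_max_right (1:ℝ) ‖η‖
      linarith
    calc (1 + ‖η‖) ^ k ≤ (2 * max 1 ‖η‖) ^ k := by gcongr
      _ = 2 ^ k * (max 1 ‖η‖) ^ k := mul_pow _ _ _
      _ ≤ 2 ^ k * (1 + ‖η‖ ^ k) := by
          gcongr
          rcases le_total 1 ‖η‖ with h | h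
          · rw [max_eq_right h]; linarith
          · rw [max_eq_left h, one_pow]
            have : 0 ≤ ‖η‖ ^ k := by positivity
            linarith
  calc (1 + ‖ξ‖) ^ k * ‖∫ η, φ η * 𝓕 u (ξ - η)‖
      ≤ (1 + ‖ξ‖) ^ k * ∫ η, ‖φ η * 𝓕 u (ξ - η)‖ := by
        gcongr
        exact norm_integral_le_integral_norm _
    _ = ∫ η, (1 + ‖ξ‖) ^ k * ‖φ η * 𝓕 u (ξ - η)‖ := by rw [integral_const_mul]
    _ ≤ ∫ η, 2 ^ k * ((1 + ‖η‖ ^ k) * ‖φ η‖) * S := by
        apply integral_mono_of_nonneg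
        · exact Eventually.of_forall fun η => by positivity
        · exact hw
        · refine Eventually.of_forall fun η => ?_
          simp only
          rw [norm_mul]
          have htri : (1 + ‖ξ‖) ≤ (1 + ‖η‖) * (1 + ‖ξ - η‖) := by
            have h5 : ‖ξ‖ ≤ ‖η‖ + ‖ξ - η‖ := by
              calc ‖ξ‖ = ‖η + (ξ - η)‖ := by congr 1; abel
                _ ≤ _ := norm_add_le _ _
            have h6 : 0 ≤ ‖η‖ * ‖ξ - η‖ := by positivity
            linarith [h5, h6, (by ring : (1 + ‖η‖) * (1 + ‖ξ - η‖)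
              = 1 + ‖η‖ + ‖ξ - η‖ + ‖η‖ * ‖ξ - η‖)]
          calc (1 + ‖ξ‖) ^ k * (‖φ η‖ * ‖𝓕 u (ξ - η)‖)
              ≤ ((1 + ‖η‖) * (1 + ‖ξ - η‖)) ^ k * (‖φ η‖ * ‖𝓕 u (ξ - η)‖) := by gcongr
            _ = ((1 + ‖η‖) ^ k * ‖φ η‖) * ((1 + ‖ξ - η‖) ^ k * ‖𝓕 u (ξ - η)‖) := by
                rw [mul_pow]; ring
            _ ≤ ((2 ^ k * (1 + ‖η‖ ^ k)) * ‖φ η‖) * S := by
                gcongr
                · exact hpow η
                · exact hu.2 _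
            _ = _ := by ring
    _ = 2 ^ k * (∫ η, (1 + ‖η‖ ^ k) * ‖φ η‖) * S := by
        rw [integral_mul_const, integral_const_mul]
    _ ≤ 2 ^ k * B * S := by gcongr

/-- Fourier transform of a partial derivative -/
lemma fourier_pd {u : E d → ℂ} (hu : ContDiff ℝ 1 u) (hc : HasCompactSupport u) (j : Fin d)
    (ξ : E d) : 𝓕 (pd j u) ξ = (2 * π * Complex.I * (ξ j : ℂ)) * 𝓕 u ξ := by
  have hint : Integrable u := hu.continuous.integrable_of_hasCompactSupport hc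
  have hint' : Integrable (fderiv ℝ u) :=
    (hu.continuous_fderiv one_ne_zero).integrable_of_hasCompactSupport (hc.fderiv (𝕜 := ℝ))
  have h := congrFun (Real.fourier_fderiv hint (hu.differentiable one_ne_zero) hint') ξ
  have h2 : 𝓕 (pd j u) ξ = (𝓕 (fderiv ℝ u) ξ) (EuclideanSpace.single j (1:ℝ)) := by
    rw [Real.fourier_eq, Real.fourier_eq]
    rw [ContinuousLinearMap.integral_apply]
    · rfl
    · exact (Real.fourierIntegral_convergent_iff ξ).2 hint'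
  rw [h2, h, VectorFourier.fourierSMulRight_apply]
  have : (innerSL ℝ ξ) (EuclideanSpace.single j (1:ℝ)) = ξ j := by
    rw [innerSL_apply_apply, EuclideanSpace.inner_single_right]
    simp
  simp only [neg_apply]
  rw [this]
  simp only [neg_smul, smul_eq_mul, Complex.real_smul]
  push_cast
  ring

lemma pd_contDiff {u : E d → ℂ} {n : ℕ} (hu : ContDiff ℝ (n + 1 : ℕ) u) (j : Fin d) :
    ContDiff ℝ n (pd j u) := by
  have : ContDiff ℝ n (fderiv ℝ u) := hu.fderiv_right (by exact_mod_cast le_rfl)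
  exact this.clm_apply contDiff_const

lemma pd_hasCompactSupport {u : E d → ℂ} (hc : HasCompactSupport u) (j : Fin d) :
    HasCompactSupport (pd j u) := by
  have := hc.fderiv (𝕜 := ℝ)
  exact this.comp_left (g := fun L : E d →L[ℝ] ℂ => L (EuclideanSpace.single j (1:ℝ))) rfl

/-- Fourier transform of the Laplacian -/
lemma fourier_lap {u : E d → ℂ} (hu : ContDiff ℝ 2 u) (hc : HasCompactSupport u) (ξ : E d) :
    𝓕 (lap u) ξ = -((4 * π ^ 2 * ‖ξ‖ ^ 2 : ℝ) : ℂ) * 𝓕 u ξ := by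
  have hpd : ∀ j : Fin d, ContDiff ℝ 1 (pd j u) := fun j => pd_contDiff (n := 1) hu j
  have hpdc : ∀ j : Fin d, HasCompactSupport (pd j u) := fun j => pd_hasCompactSupport hc j
  have hint : ∀ j : Fin d, Integrable (pd j (pd j u)) := fun j =>
    ((pd_contDiff (n := 0) (hpd j) j).continuous).integrable_of_hasCompactSupport
      (pd_hasCompactSupport (hpdc j) j)
  have h1 : 𝓕 (lap u) ξ = ∑ j, 𝓕 (pd j (pd j u)) ξ := by
    rw [Real.fourier_eq]
    have : ∀ x, Real.fourierChar (-(inner ℝ x ξ)) • lap u x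
        = ∑ j, Real.fourierChar (-(inner ℝ x ξ)) • pd j (pd j u) x := by
      intro x
      rw [lap, Finset.smul_sum]
    simp_rw [this]
    rw [integral_finsetSum]
    · rfl
    · intro j _
      exact (Real.fourierIntegral_convergent_iff ξ).2 (hint j)
  rw [h1]
  have h2 : ∀ j : Fin d, 𝓕 (pd j (pd j u)) ξ
      = (2 * π * Complex.I * (ξ j : ℂ)) * ((2 * π * Complex.I * (ξ j : ℂ)) * 𝓕 u ξ) := by
    intro j
    rw [fourier_pd (hpd j) (hpdc j), fourier_pd (hu.of_le (by norm_num)) hc]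
  simp_rw [h2]
  have h3 : ∀ j : Fin d, (2 * π * Complex.I * (ξ j : ℂ)) * ((2 * π * Complex.I * (ξ j : ℂ)) * 𝓕 u ξ)
      = (-(4 * π ^ 2 : ℂ) * 𝓕 u ξ) * ((ξ j : ℂ) ^ 2) := by
    intro j
    have : Complex.I ^ 2 = -1 := Complex.I_sq
    linear_combination (4 * π ^ 2 * (ξ j : ℂ) ^ 2 * 𝓕 u ξ) * this
  simp_rw [h3]
  rw [← Finset.mul_sum]
  have h4 : ∑ j, (ξ j : ℂ) ^ 2 = ((‖ξ‖ ^ 2 : ℝ) : ℂ) := by
    rw [EuclideanSpace.real_norm_sq_eq]
    push_cast
    rfl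
  rw [h4]
  push_cast
  ring

/-- one step of elliptic regularity on the Fourier side -/
lemma FB.gain {k : ℕ} {u R : E d → ℂ} {B : Fin d → E d → ℂ} {S T : ℝ} {SB : Fin d → ℝ}
    (hu : ContDiff ℝ 2 u) (hc : HasCompactSupport u)
    (hB : ∀ j, ContDiff ℝ 1 (B j)) (hBc : ∀ j, HasCompactSupport (B j))
    (heq : ∀ x, lap u x = (∑ j, pd j (B j) x) + R x)
    (h0 : FB k u S) (h1 : ∀ j, FB k (B j) (SB j)) (h2 : FB k R T) :
    FB (k + 1) u (2 * S + ∑ j, SB j + T) := by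
  refine ⟨h0.1, fun ξ => ?_⟩
  have hS := h0.nonneg
  have hT := h2.nonneg
  have hSB : ∀ j, 0 ≤ SB j := fun j => (h1 j).nonneg
  have hsum0 : 0 ≤ ∑ j, SB j := Finset.sum_nonneg fun j _ => hSB j
  have hpdint : ∀ j : Fin d, Integrable (pd j (B j)) := fun j =>
    ((pd_contDiff (n := 0) (hB j) j).continuous).integrable_of_hasCompactSupport
      (pd_hasCompactSupport (hBc j) j)
  have hF : 𝓕 (lap u) ξ = (∑ j, 𝓕 (pd j (B j)) ξ) + 𝓕 R ξ := by
    have : lap u = fun x => (∑ j, pd j (B j) x) + R x := funext heq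
    rw [this, fourier_add' (integrable_finsetSum _ fun j _ => hpdint j) h2.1]
    congr 1
    rw [Real.fourier_eq]
    have : ∀ x, Real.fourierChar (-(inner ℝ x ξ)) • (∑ j, pd j (B j) x)
        = ∑ j, Real.fourierChar (-(inner ℝ x ξ)) • pd j (B j) x := by
      intro x
      rw [Finset.smul_sum]
    simp_rw [this]
    rw [integral_finsetSum]
    · rfl
    · intro j _
      exact (Real.fourierIntegral_convergent_iff ξ).2 (hpdint j)
  have hw : (0:ℝ) < (1 + ‖ξ‖) ^ k := by positivity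
  have hmain : 4 * π ^ 2 * ‖ξ‖ ^ 2 * ‖𝓕 u ξ‖
      ≤ ∑ j, 2 * π * ‖ξ‖ * ‖𝓕 (B j) ξ‖ + ‖𝓕 R ξ‖ := by
    have e1 : ‖𝓕 (lap u) ξ‖ = 4 * π ^ 2 * ‖ξ‖ ^ 2 * ‖𝓕 u ξ‖ := by
      rw [fourier_lap hu hc, norm_mul, norm_neg, Complex.norm_real,
        Real.norm_of_nonneg (by positivity)]
    rw [← e1, hF]
    refine (norm_add_le _ _).trans (add_le_add ((norm_sum_le _ _).trans ?_) le_rfl)
    apply Finset.sum_le_sum
    intro j _
    rw [fourier_pd (hB j) (hBc j), norm_mul]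
    gcongr
    rw [norm_mul, norm_mul, norm_mul, Complex.norm_I, Complex.norm_real, Complex.norm_real,
      Complex.norm_ofNat, Real.norm_of_nonneg Real.pi_pos.le]
    have : ‖ξ j‖ ≤ ‖ξ‖ := by exact PiLp.norm_apply_le ξ j
    calc 2 * π * 1 * ‖ξ j‖ ≤ 2 * π * 1 * ‖ξ‖ := by gcongr
      _ = 2 * π * ‖ξ‖ := by ring
  -- the gain
  have hgain : (1 + ‖ξ‖) * ‖𝓕 u ξ‖ ≤ 2 * ‖𝓕 u ξ‖ + ∑ j, ‖𝓕 (B j) ξ‖ + ‖𝓕 R ξ‖ := by
    have hn : 0 ≤ ‖𝓕 u ξ‖ := norm_nonneg _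
    have hr : 0 ≤ ‖𝓕 R ξ‖ := norm_nonneg _
    have hb : 0 ≤ ∑ j, ‖𝓕 (B j) ξ‖ := Finset.sum_nonneg fun j _ => norm_nonneg _
    rcases le_total ‖ξ‖ 1 with hξ | hξ
    · have : ‖ξ‖ * ‖𝓕 u ξ‖ ≤ 1 * ‖𝓕 u ξ‖ := by gcongr
      linarith
    · have hpos : 0 < ‖ξ‖ := by linarith
      have hpi : (3:ℝ) < π := Real.pi_gt_three
      have hm2 : 4 * π ^ 2 * ‖ξ‖ ^ 2 * ‖𝓕 u ξ‖
          ≤ 2 * π * ‖ξ‖ * (∑ j, ‖𝓕 (B j) ξ‖) + ‖𝓕 R ξ‖ := by
        rw [Finset.mul_sum]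
        exact hmain
      have hm3 : 4 * π ^ 2 * ‖ξ‖ * (‖ξ‖ * ‖𝓕 u ξ‖)
          ≤ 4 * π ^ 2 * ‖ξ‖ * (∑ j, ‖𝓕 (B j) ξ‖ + ‖𝓕 R ξ‖) := by
        calc 4 * π ^ 2 * ‖ξ‖ * (‖ξ‖ * ‖𝓕 u ξ‖) = 4 * π ^ 2 * ‖ξ‖ ^ 2 * ‖𝓕 u ξ‖ := by ring
          _ ≤ 2 * π * ‖ξ‖ * (∑ j, ‖𝓕 (B j) ξ‖) + ‖𝓕 R ξ‖ := hm2
          _ ≤ 4 * π ^ 2 * ‖ξ‖ * (∑ j, ‖𝓕 (B j) ξ‖) + 4 * π ^ 2 * ‖ξ‖ * ‖𝓕 R ξ‖ := by
              apply add_le_add
              · have : 2 * π ≤ 4 * π ^ 2 := by nlinarith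
                gcongr
              · have : 1 ≤ 4 * π ^ 2 * ‖ξ‖ := by nlinarith [mul_pos (by linarith : (0:ℝ) < π) hpos]
                nlinarith
          _ = _ := by ring
      have hm4 : ‖ξ‖ * ‖𝓕 u ξ‖ ≤ ∑ j, ‖𝓕 (B j) ξ‖ + ‖𝓕 R ξ‖ :=
        le_of_mul_le_mul_left hm3 (by positivity)
      linarith
  calc (1 + ‖ξ‖) ^ (k + 1) * ‖𝓕 u ξ‖ = (1 + ‖ξ‖) ^ k * ((1 + ‖ξ‖) * ‖𝓕 u ξ‖) := by ring
    _ ≤ (1 + ‖ξ‖) ^ k * (2 * ‖𝓕 u ξ‖ + ∑ j, ‖𝓕 (B j) ξ‖ + ‖𝓕 R ξ‖) := by gcongr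
    _ = 2 * ((1 + ‖ξ‖) ^ k * ‖𝓕 u ξ‖) + ∑ j, (1 + ‖ξ‖) ^ k * ‖𝓕 (B j) ξ‖
        + (1 + ‖ξ‖) ^ k * ‖𝓕 R ξ‖ := by
        rw [← Finset.mul_sum]
        ring
    _ ≤ 2 * S + ∑ j, SB j + T := by
        gcongr with j _
        · exact h0.2 ξ
        · exact (h1 j).2 ξ
        · exact h2.2 ξ

end Vale.Agent.P139.H305
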