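import Vale.Agent.P139.H305.FB

/-!
# P139 / H305 : interior regularity with polynomial constants (block X6)

Solutions of `lap f = α eul f + p11 f + p12 g + s1`, `lap g = β eul g + p21 f + p22 g + s2` on a
ball: Wiener norms of localisations of `f, g` are bounded by a power of the size of the
coefficients times the `L¹` norm of `(f,g)` on a slightly larger ball.
-/

open MeasureTheory Real FourierTransform Filter Topology Metric
open scoped ContDiff

namespace Vale.Agent.P139.H305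

open Vale.Agent.P139.BU Vale.Agent.P139.H201

variable {d : ℕ}

/-! ### calculus of `pd`, `lap`, `eul` -/

lemma pd_mul {f g : E d → ℂ} {x : E d} (hf : DifferentiableAt ℝ f x) (hg : DifferentiableAt ℝ g x)
    (j : Fin d) : pd j (fun y => f y * g y) x = pd j f x * g x + f x * pd j g x := by
  unfold pd
  rw [fderiv_fun_mul hf hg]
  simp only [add_apply, smul_apply, smul_eq_mul]
  ring

lemma pd_add {f g : E d → ℂ} {x : E d} (hf : DifferentiableAt ℝ f x) (hg : DifferentiableAt ℝ g x)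
    (j : Fin d) : pd j (fun y => f y + g y) x = pd j f x + pd j g x := by
  unfold pd
  rw [fderiv_fun_add hf hg]
  rfl

lemma eul_eq (f : E d → ℂ) (x : E d) : eul f x = ∑ j, (x j : ℂ) * pd j f x := by
  unfold eul pd
  have hx : x = ∑ j, x j • EuclideanSpace.single j (1:ℝ) := by
    ext i
    simp [Pi.single_apply]
  conv_lhs => rw [hx]
  rw [map_sum]
  · congr 1
    ext j
    rw [map_smul, ← hx, Complex.real_smul]

lemma lap_mul {f g : E d → ℂ} (hf : ContDiff ℝ 2 f) (hg : ContDiff ℝ 2 g) (x : E d) :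
    lap (fun y => f y * g y) x
      = lap f x * g x + 2 * (∑ j, pd j f x * pd j g x) + f x * lap g x := by
  have hf1 : Differentiable ℝ f := hf.differentiable two_ne_zero
  have hg1 : Differentiable ℝ g := hg.differentiable two_ne_zero
  have hpf : ∀ j, Differentiable ℝ (pd j f) := fun j =>
    (pd_contDiff (n := 1) hf j).differentiable one_ne_zero
  have hpg : ∀ j, Differentiable ℝ (pd j g) := fun j =>
    (pd_contDiff (n := 1) hg j).differentiable one_ne_zero
  unfold lap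
  rw [Finset.sum_mul, Finset.mul_sum, Finset.mul_sum, ← Finset.sum_add_distrib,
    ← Finset.sum_add_distrib]
  apply Finset.sum_congr rfl
  intro j _
  have h1 : pd j (fun y => f y * g y) = fun y => pd j f y * g y + f y * pd j g y := by
    ext y
    exact pd_mul (hf1 y) (hg1 y) j
  rw [h1, pd_add ((hpf j x).fun_mul (hg1 x)) ((hf1 x).fun_mul (hpg j x)),
    pd_mul (hpf j x) (hg1 x), pd_mul (hf1 x) (hpg j x)]
  ring

/-! ### coefficients -/

lemma wiener_smooth (k : ℕ) {b : E d → ℂ} (hb : ContDiff ℝ ∞ b) (hc : HasCompactSupport b) :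
    ∃ C : ℝ, 0 ≤ C ∧ WienerRep k b C := by
  obtain ⟨r, hr⟩ := hc.isCompact.isBounded.subset_closedBall (0 : E d)
  obtain ⟨C, hC, H⟩ := WienerRep.of_supp (E d) ℂ k r
  have h1 : ∀ i : ℕ, ∃ K : ℝ, ∀ x : E d, ‖iteratedFDeriv ℝ i b x‖ ≤ K := by
    intro i
    obtain ⟨K, hK⟩ := (hc.iteratedFDeriv (𝕜 := ℝ) i).exists_bound_of_continuous
      (hb.continuous_iteratedFDeriv (by exact_mod_cast le_top))
    exact ⟨K, hK⟩
  choose K hK using h1
  set A : ℝ := ∑ i ∈ Finset.range (nd (E d) k + 1), |K i| with hA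
  have hA0 : 0 ≤ A := Finset.sum_nonneg fun i _ => abs_nonneg _
  refine ⟨C * A, by positivity, H b A hA0 (hb.of_le (by exact_mod_cast le_top)) ?_ ?_⟩
  · intro x hx
    by_contra hne
    have := hr (subset_tsupport b hne)
    rw [mem_closedBall_zero_iff] at this
    linarith
  · intro j hj x
    refine (hK j x).trans ((le_abs_self _).trans ?_)
    exact Finset.single_le_sum (f := fun i => |K i|) (fun i _ => abs_nonneg _)
      (Finset.mem_range.mpr (Nat.lt_succ_of_le hj))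

lemma zero_near {ψ : E d → ℂ} {r : ℝ} (h0 : ∀ x, r < ‖x‖ → ψ x = 0) {x : E d} (hx : r < ‖x‖)
    (i : ℕ) : iteratedFDeriv ℝ i ψ x = 0 := by
  have h : ψ =ᶠ[𝓝 x] fun _ => 0 := by
    have : {y : E d | r < ‖y‖} ∈ 𝓝 x := (isOpen_lt continuous_const continuous_norm).mem_nhds hx
    filter_upwards [this] with y hy
    exact h0 y hy
  rw [(h.iteratedFDeriv ℝ i).eq_of_nhds]
  exact congrFun iteratedFDeriv_fun_zero x

/-- Leibniz bound for `ψ * p`, `ψ` smooth and supported in the ball of radius `r`. -/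
lemma cut_bound (n : ℕ) {ψ : E d → ℂ} {r : ℝ} (hψ : ContDiff ℝ ∞ ψ) (hc : HasCompactSupport ψ)
    (h0 : ∀ x, r < ‖x‖ → ψ x = 0) :
    ∃ C : ℝ, 0 < C ∧ ∀ (p : E d → ℂ) (A : ℝ), 0 ≤ A → ContDiff ℝ n p →
      (∀ i ≤ n, ∀ x, ‖x‖ ≤ r → ‖iteratedFDeriv ℝ i p x‖ ≤ A) →
      ContDiff ℝ n (fun x => ψ x * p x) ∧
      (∀ i ≤ n, ∀ x, ‖iteratedFDeriv ℝ i (fun x => ψ x * p x) x‖ ≤ C * A) := by
  have h1 : ∀ i : ℕ, ∃ K : ℝ, ∀ x : E d, ‖iteratedFDeriv ℝ i ψ x‖ ≤ K := by
    intro i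
    obtain ⟨K, hK⟩ := (hc.iteratedFDeriv (𝕜 := ℝ) i).exists_bound_of_continuous
      (hψ.continuous_iteratedFDeriv (by exact_mod_cast le_top))
    exact ⟨K, hK⟩
  choose K hK using h1
  set B : ℝ := ∑ i ∈ Finset.range (n + 1), |K i| with hB
  have hB0 : 0 ≤ B := Finset.sum_nonneg fun i _ => abs_nonneg _
  refine ⟨2 ^ n * B + 1, by positivity, ?_⟩
  intro p A hA hp hbd
  have hψn : ContDiff ℝ n ψ := hψ.of_le (by exact_mod_cast le_top)
  refine ⟨hψn.mul hp, ?_⟩
  intro j hj x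
  have hLeib := norm_iteratedFDeriv_smul_le (𝕜 := ℝ) (𝕜' := ℂ) hψn hp x (n := j)
    (by exact_mod_cast hj)
  refine hLeib.trans ?_
  by_cases hx : ‖x‖ ≤ r
  · have hterm : ∀ i ∈ Finset.range (j + 1),
        ((j.choose i : ℕ) : ℝ) * ‖iteratedFDeriv ℝ i ψ x‖ * ‖iteratedFDeriv ℝ (j - i) p x‖
        ≤ ((j.choose i : ℕ) : ℝ) * (B * A) := by
      intro i hi
      have hij : i ≤ j := Nat.lt_succ_iff.mp (Finset.mem_range.mp hi)
      rw [mul_assoc]
      gcongr
      · refine (hK i x).trans ((le_abs_self _).trans ?_)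
        exact Finset.single_le_sum (f := fun i => |K i|) (fun i _ => abs_nonneg _)
          (Finset.mem_range.mpr (by omega))
      · exact hbd (j - i) (by omega) x hx
    refine (Finset.sum_le_sum hterm).trans ?_
    rw [← Finset.sum_mul]
    have hs : ∑ i ∈ Finset.range (j + 1), ((j.choose i : ℕ) : ℝ) = 2 ^ j := by
      exact_mod_cast Nat.sum_range_choose j
    rw [hs]
    have h2j : (2:ℝ) ^ j ≤ 2 ^ n := pow_le_pow_right₀ (by norm_num) hj
    calc (2:ℝ) ^ j * (B * A) ≤ 2 ^ n * (B * A) := by gcongr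
      _ ≤ (2 ^ n * B + 1) * A := by nlinarith
  · push Not at hx
    have : ∀ i ∈ Finset.range (j + 1),
        ((j.choose i : ℕ) : ℝ) * ‖iteratedFDeriv ℝ i ψ x‖ * ‖iteratedFDeriv ℝ (j - i) p x‖ = 0 := by
      intro i _
      rw [zero_near h0 hx i, norm_zero, mul_zero, zero_mul]
    rw [Finset.sum_eq_zero this]
    positivity

lemma wiener_cut (k : ℕ) {ψ : E d → ℂ} {r : ℝ} (hψ : ContDiff ℝ ∞ ψ) (hc : HasCompactSupport ψ)
    (h0 : ∀ x, r < ‖x‖ → ψ x = 0) :
    ∃ C : ℝ, 0 < C ∧ ∀ (p : E d → ℂ) (A : ℝ), 0 ≤ A → ContDiff ℝ (nd (E d) k) p →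
      (∀ i ≤ nd (E d) k, ∀ x, ‖x‖ ≤ r → ‖iteratedFDeriv ℝ i p x‖ ≤ A) →
      WienerRep k (fun x => ψ x * p x) (C * A) := by
  obtain ⟨C1, hC1, H1⟩ := cut_bound (nd (E d) k) hψ hc h0
  obtain ⟨C2, hC2, H2⟩ := WienerRep.of_supp (E d) ℂ k r
  refine ⟨C2 * C1, by positivity, ?_⟩
  intro p A hA hp hbd
  obtain ⟨a1, a2⟩ := H1 p A hA hp hbd
  have := H2 (fun x => ψ x * p x) (C1 * A) (by positivity) a1
    (fun x hx => by rw [h0 x hx, zero_mul]) a2
  rwa [← mul_assoc] at this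

lemma FB_cut (k : ℕ) {ψ : E d → ℂ} {r : ℝ} (hψ : ContDiff ℝ ∞ ψ) (hc : HasCompactSupport ψ)
    (h0 : ∀ x, r < ‖x‖ → ψ x = 0) :
    ∃ C : ℝ, 0 < C ∧ ∀ (p : E d → ℂ) (A : ℝ), 0 ≤ A → ContDiff ℝ k p →
      (∀ i ≤ k, ∀ x, ‖x‖ ≤ r → ‖iteratedFDeriv ℝ i p x‖ ≤ A) →
      FB k (fun x => ψ x * p x) (C * A) := by
  obtain ⟨C1, hC1, H1⟩ := cut_bound k hψ hc h0
  obtain ⟨C2, hC2, H2⟩ := fourier_decay (E := E d) (F := ℂ) k r
  refine ⟨C2 * C1, by positivity, ?_⟩
  intro p A hA hp hbd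
  obtain ⟨a1, a2⟩ := H1 p A hA hp hbd
  refine ⟨?_, fun ξ => ?_⟩
  · exact a1.continuous.integrable_of_hasCompactSupport (hc.mul_right)
  · have := H2 (fun x => ψ x * p x) (C1 * A) (by positivity) a1
      (fun x hx => by rw [h0 x hx, zero_mul]) a2 ξ
    rwa [← mul_assoc] at this

/-! ### one step -/

lemma contDiff_pd_smooth {u : E d → ℂ} (hu : ContDiff ℝ ∞ u) (j : Fin d) :
    ContDiff ℝ ∞ (pd j u) := by
  have : ContDiff ℝ ∞ (fderiv ℝ u) := hu.fderiv_right (by exact_mod_cast le_rfl)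
  exact this.clm_apply contDiff_const

lemma contDiff_lap_smooth {u : E d → ℂ} (hu : ContDiff ℝ ∞ u) : ContDiff ℝ ∞ (lap u) := by
  unfold lap
  exact ContDiff.sum fun j _ => contDiff_pd_smooth (contDiff_pd_smooth hu j) j


/-- one step of the regularity iteration -/
lemma step (k : ℕ) (α : ℂ) {ψ : E d → ℂ} {r : ℝ} (hψ : ContDiff ℝ ∞ ψ) (hc : HasCompactSupport ψ)
    (h0 : ∀ x, x ∉ closedBall (0 : E d) r → ψ x = 0) :
    ∃ C : ℝ, 0 ≤ C ∧ ∀ (ψ₀ f h : E d → ℂ) (S T : ℝ), (∀ x, ‖x‖ ≤ r → ψ₀ x = 1) →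
      ContDiff ℝ 2 f → (∀ x, ‖x‖ ≤ r → lap f x = α * eul f x + h x) →
      FB k (fun x => ψ₀ x * f x) S → FB k (fun x => ψ x * h x) T →
      FB (k + 1) (fun x => ψ x * f x) (C * S + T) := by
  -- the coefficients
  set b : Fin d → E d → ℂ := fun j x => α * ((x j : ℂ) * ψ x) + 2 * pd j ψ x with hb
  have hcoord : ∀ j : Fin d, ContDiff ℝ ∞ (fun x : E d => ((x j : ℝ) : ℂ)) := by
    intro j
    exact Complex.ofRealCLM.contDiff.comp (contDiff_piLp_apply 2)
  have hbs : ∀ j, ContDiff ℝ ∞ (b j) := by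
    intro j
    exact (contDiff_const.mul ((hcoord j).mul hψ)).add
      (contDiff_const.mul (contDiff_pd_smooth hψ j))
  have hbc : ∀ j, HasCompactSupport (b j) := by
    intro j
    apply HasCompactSupport.add
    · exact (hc.mul_left).mul_left
    · exact (pd_hasCompactSupport hc j).mul_left
  set c : E d → ℂ := fun x => lap ψ x - ∑ j, pd j (b j) x with hcdef
  have hcs : ContDiff ℝ ∞ c := by
    exact (contDiff_lap_smooth hψ).sub (ContDiff.sum fun j _ => contDiff_pd_smooth (hbs j) j)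
  -- support of ψ: tsupport in the closed ball
  have hts : tsupport ψ ⊆ closedBall (0 : E d) r := by
    apply closure_minimal _ isClosed_closedBall
    intro x hx
    by_contra hne
    exact hx (h0 x hne)
  have hpdsupp : ∀ (u : E d → ℂ) (j : Fin d), tsupport u ⊆ closedBall (0 : E d) r →
      tsupport (pd j u) ⊆ closedBall (0 : E d) r := by
    intro u j hu
    have h1 : Function.support (pd j u) ⊆ tsupport u := by
      intro x hx
      have : fderiv ℝ u x ≠ 0 := by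
        intro h
        apply hx
        unfold pd
        rw [h]
        rfl
      exact support_fderiv_subset ℝ this
    exact (closure_minimal h1 (isClosed_tsupport u)).trans hu
  have hbsupp : ∀ j, tsupport (b j) ⊆ closedBall (0 : E d) r := by
    intro j
    apply closure_minimal _ isClosed_closedBall
    intro x hx
    by_contra hne
    apply hx
    have e1 : ψ x = 0 := h0 x hne
    have e2 : pd j ψ x = 0 := by
      by_contra h
      exact hne (hpdsupp ψ j hts (subset_tsupport _ h))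
    simp only [hb]
    rw [e1, e2]
    ring
  have hczero : ∀ x, x ∉ closedBall (0 : E d) r → c x = 0 := by
    intro x hne
    have e1 : ∀ (u : E d → ℂ) (j : Fin d), tsupport u ⊆ closedBall (0 : E d) r → pd j u x = 0 := by
      intro u j hu
      by_contra h
      exact hne (hpdsupp u j hu (subset_tsupport _ h))
    simp only [hcdef]
    unfold lap
    rw [Finset.sum_eq_zero fun j _ => e1 (pd j ψ) j (hpdsupp ψ j hts),
      Finset.sum_eq_zero fun j _ => e1 (b j) j (hbsupp j), sub_zero]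
  have hcc : HasCompactSupport c := by
    apply HasCompactSupport.of_support_subset_isCompact (isCompact_closedBall (0 : E d) r)
    intro x hx
    by_contra hne
    exact hx (hczero x hne)
  -- constants
  obtain ⟨Cψ, hCψ, Wψ⟩ := wiener_smooth k hψ hc
  obtain ⟨Cc, hCc, Wc⟩ := wiener_smooth k hcs hcc
  have hWb : ∀ j, ∃ C : ℝ, 0 ≤ C ∧ WienerRep k (b j) C := fun j => wiener_smooth k (hbs j) (hbc j)
  choose Cb hCb Wb using hWb
  have hCbs : 0 ≤ ∑ j, Cb j := Finset.sum_nonneg fun j _ => hCb j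
  refine ⟨2 * (2 ^ k * Cψ) + 2 ^ k * (∑ j, Cb j) + 2 ^ k * Cc, by positivity, ?_⟩
  intro ψ₀ f h S T hone hf heq hS hT
  have hmulψ : ∀ (a : E d → ℂ), (∀ x, x ∉ closedBall (0 : E d) r → a x = 0) →
      (fun x => a x * (ψ₀ x * f x)) = fun x => a x * f x := by
    intro a ha
    ext x
    by_cases hx : x ∈ closedBall (0 : E d) r
    · rw [mem_closedBall_zero_iff] at hx
      rw [hone x hx, one_mul]
    · rw [ha x hx, zero_mul, zero_mul]
  have hbzero : ∀ j, ∀ x, x ∉ closedBall (0 : E d) r → b j x = 0 := by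
    intro j x hne
    by_contra h
    exact hne (hbsupp j (subset_tsupport _ h))
  have F0 : FB k (fun x => ψ x * f x) (2 ^ k * Cψ * S) := by
    have := FB.mul Wψ hS
    rwa [hmulψ ψ h0] at this
  have FBb : ∀ j, FB k (fun x => b j x * f x) (2 ^ k * Cb j * S) := by
    intro j
    have := FB.mul (Wb j) hS
    rwa [hmulψ (b j) (hbzero j)] at this
  have Fc : FB k (fun x => c x * f x) (2 ^ k * Cc * S) := by
    have := FB.mul Wc hS
    rwa [hmulψ c hczero] at this
  have hψ2 : ContDiff ℝ 2 ψ := by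
    have := hψ.of_le (m := ((2:ℕ) : ℕ∞)) (by exact_mod_cast le_top)
    exact_mod_cast this
  have key := FB.gain (u := fun x => ψ x * f x) (R := fun x => c x * f x + ψ x * h x)
    (B := fun j x => b j x * f x) (k := k)
    (S := 2 ^ k * Cψ * S) (T := 2 ^ k * Cc * S + T) (SB := fun j => 2 ^ k * Cb j * S)
    (hψ2.mul hf) hc.mul_right
    (fun j => ((hbs j).of_le (by exact_mod_cast le_top)).mul (hf.of_le (by norm_num)))
    (fun j => (hbc j).mul_right) ?_ F0 FBb (Fc.add hT)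
  · apply key.mono
    rw [← Finset.sum_mul, ← Finset.mul_sum]
    apply le_of_eq
    ring
  · intro x
    have hf1 : Differentiable ℝ f := hf.differentiable two_ne_zero
    have hψ1 : Differentiable ℝ ψ := hψ2.differentiable two_ne_zero
    have hb1 : ∀ j, Differentiable ℝ (b j) := fun j =>
      ((hbs j).of_le (by exact_mod_cast le_top : (1 : ℕ∞ω) ≤ _)).differentiable one_ne_zero
    rw [lap_mul hψ2 hf]
    have e1 : ∑ j, pd j (fun x => b j x * f x) x
        = (∑ j, pd j (b j) x) * f x + ∑ j, b j x * pd j f x := by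
      rw [Finset.sum_mul, ← Finset.sum_add_distrib]
      apply Finset.sum_congr rfl
      intro j _
      rw [pd_mul (hb1 j x) (hf1 x)]
    have e2 : ∑ j, b j x * pd j f x
        = ψ x * (α * eul f x) + 2 * ∑ j, pd j ψ x * pd j f x := by
      rw [eul_eq, Finset.mul_sum, Finset.mul_sum, Finset.mul_sum, ← Finset.sum_add_distrib]
      apply Finset.sum_congr rfl
      intro j _
      simp only [hb]
      ring
    have e3 : ψ x * lap f x = ψ x * (α * eul f x) + ψ x * h x := by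
      by_cases hx : x ∈ closedBall (0 : E d) r
      · rw [mem_closedBall_zero_iff] at hx
        rw [heq x hx]
        ring
      · rw [h0 x hx]
        ring
    rw [e1, e2, e3]
    simp only [hcdef]
    ring

/-! ### cut-offs -/

/-- smooth cut-off, `1` on the ball of radius `a`, `0` outside the ball of radius `b`. -/
lemma exists_cut {a b : ℝ} (ha : 0 < a) (hab : a < b) : ∃ ψ : E d → ℂ, ContDiff ℝ ∞ ψ ∧
    HasCompactSupport ψ ∧ (∀ x, ‖x‖ ≤ a → ψ x = 1) ∧ (∀ x, b < ‖x‖ → ψ x = 0) ∧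
    ∀ x, ‖ψ x‖ ≤ 1 := by
  let B : ContDiffBump (0 : E d) := ⟨a, b, ha, hab⟩
  refine ⟨fun x => ((B x : ℝ) : ℂ), ?_, ?_, ?_, ?_, ?_⟩
  · have : ContDiff ℝ ∞ (B : E d → ℝ) := B.contDiff
    exact Complex.ofRealCLM.contDiff.comp this
  · have : HasCompactSupport (B : E d → ℝ) := B.hasCompactSupport
    exact this.comp_left (g := fun t : ℝ => (t : ℂ)) (by simp)
  · intro x hx
    have : B x = 1 := B.one_of_mem_closedBall (by simpa [mem_closedBall_zero_iff] using hx)
    simp [this]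
  · intro x hx
    have : B x = 0 := B.zero_of_le_dist (by
      rw [dist_zero_right]
      exact hx.le)
    simp [this]
  · intro x
    rw [Complex.norm_real, Real.norm_of_nonneg B.nonneg]
    exact B.le_one

/-- from Fourier-side sup bounds to the Wiener class -/
lemma FB.wiener (s : ℕ) : ∃ C : ℝ, 0 < C ∧ ∀ (u : E d → ℂ) (S : ℝ), Continuous u →
    FB (nd (E d) s) u S → WienerRep s u (C * S) := by
  set D : ℕ := Module.finrank ℝ (E d) + 1 with hD
  set K : ℝ := ∫ ξ : E d, (1 + ‖ξ‖) ^ (-(D : ℝ)) with hK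
  have hKint : Integrable (fun ξ : E d => (1 + ‖ξ‖) ^ (-(D : ℝ))) := by
    apply integrable_one_add_norm
    rw [hD]
    push_cast
    linarith
  have hK0 : 0 ≤ K := integral_nonneg fun ξ => by positivity
  refine ⟨2 * K + 1, by positivity, ?_⟩
  intro u S hu hS
  have hS0 := hS.nonneg
  have hFcont : Continuous (𝓕 u) := by
    exact VectorFourier.fourierIntegral_continuous Real.continuous_fourierChar
      (by exact continuous_inner) hS.1
  have hpt : ∀ ξ : E d, (1 + ‖ξ‖ ^ s) * ‖𝓕 u ξ‖ ≤ 2 * S * (1 + ‖ξ‖) ^ (-(D : ℝ)) := by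
    intro ξ
    have h1 : (0:ℝ) < 1 + ‖ξ‖ := by positivity
    have h2 : (1 + ‖ξ‖ ^ s) ≤ 2 * (1 + ‖ξ‖) ^ s := by
      have ha : (1:ℝ) ≤ (1 + ‖ξ‖) ^ s := one_le_pow₀ (by linarith [norm_nonneg ξ])
      have hb : ‖ξ‖ ^ s ≤ (1 + ‖ξ‖) ^ s := by
        gcongr
        linarith
      linarith
    have h3 : (1 + ‖ξ‖) ^ nd (E d) s * ‖𝓕 u ξ‖ ≤ S := hS.2 ξ
    have h4 : (1 + ‖ξ‖) ^ nd (E d) s = (1 + ‖ξ‖) ^ D * (1 + ‖ξ‖) ^ s := by
      rw [nd, pow_add]
    rw [h4] at h3
    have h5 : (1 + ‖ξ‖) ^ (-(D : ℝ)) = ((1 + ‖ξ‖) ^ D)⁻¹ := by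
      rw [Real.rpow_neg h1.le, Real.rpow_natCast]
    rw [h5]
    have h6 : (0:ℝ) < (1 + ‖ξ‖) ^ D := by positivity
    rw [← div_eq_mul_inv, le_div_iff₀ h6]
    calc (1 + ‖ξ‖ ^ s) * ‖𝓕 u ξ‖ * (1 + ‖ξ‖) ^ D
        ≤ (2 * (1 + ‖ξ‖) ^ s) * ‖𝓕 u ξ‖ * (1 + ‖ξ‖) ^ D := by gcongr
      _ = 2 * ((1 + ‖ξ‖) ^ D * (1 + ‖ξ‖) ^ s * ‖𝓕 u ξ‖) := by ring
      _ ≤ 2 * S := by gcongr
  have hbdint : Integrable (fun ξ : E d => 2 * S * (1 + ‖ξ‖) ^ (-(D : ℝ))) :=
    hKint.const_mul _
  have hwint : Integrable (fun ξ : E d => (1 + ‖ξ‖ ^ s) * ‖𝓕 u ξ‖) := by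
    apply hbdint.mono
    · exact ((by fun_prop : Continuous fun ξ : E d => 1 + ‖ξ‖ ^ s).mul
        hFcont.norm).aestronglyMeasurable
    · filter_upwards with ξ
      rw [Real.norm_of_nonneg (mul_nonneg (weight_nonneg s ξ) (norm_nonneg _))]
      exact (hpt ξ).trans (le_abs_self _)
  have hFint : Integrable (𝓕 u) := by
    apply hwint.mono hFcont.aestronglyMeasurable
    filter_upwards with ξ
    rw [Real.norm_of_nonneg (mul_nonneg (weight_nonneg s ξ) (norm_nonneg _))]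
    have : 0 ≤ ‖ξ‖ ^ s * ‖𝓕 u ξ‖ := by positivity
    linarith [this, add_mul 1 (‖ξ‖ ^ s) ‖𝓕 u ξ‖, one_mul ‖𝓕 u ξ‖]
  refine ⟨𝓕 u, hFint, hwint, ?_, ?_⟩
  · intro x
    rw [Continuous.fourierInv_fourier_eq hu hS.1 hFint]
  · calc ∫ ξ : E d, (1 + ‖ξ‖ ^ s) * ‖𝓕 u ξ‖
        ≤ ∫ ξ : E d, 2 * S * (1 + ‖ξ‖) ^ (-(D : ℝ)) := integral_mono hwint hbdint hpt
      _ = 2 * S * K := integral_const_mul _ _
      _ = (2 * K) * S := by ring
      _ ≤ (2 * K + 1) * S := by
          gcongr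
          linarith

/-! ### the iteration -/

/-- bounds for derivatives up to order `n` on the closed ball of radius `R` -/
def DB (n : ℕ) (R A : ℝ) (p : E d → ℂ) : Prop :=
  ContDiff ℝ n p ∧ ∀ i ≤ n, ∀ x, ‖x‖ ≤ R → ‖iteratedFDeriv ℝ i p x‖ ≤ A

/-- The system on the ball of radius `R`. -/
structure Sys (α β : ℂ) (n : ℕ) (R A T : ℝ) (p11 p12 p21 p22 s1 s2 f g : E d → ℂ) : Prop where
  hf : ContDiff ℝ 2 f
  hg : ContDiff ℝ 2 g
  h11 : DB n R A p11
  h12 : DB n R A p12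
  h21 : DB n R A p21
  h22 : DB n R A p22
  hs1 : DB n R T s1
  hs2 : DB n R T s2
  eqf : ∀ x, ‖x‖ ≤ R → lap f x = α * eul f x + (p11 x * f x + p12 x * g x + s1 x)
  eqg : ∀ x, ‖x‖ ≤ R → lap g x = β * eul g x + (p21 x * f x + p22 x * g x + s2 x)

/-- the induction: on every radius `r < R2`, bounds of order `k` for any cut-off of radius `r` -/
lemma iter (α β : ℂ) {R2 : ℝ} (n : ℕ) :
    ∀ k : ℕ, nd (E d) k ≤ n → ∀ r : ℝ, 0 < r → r < R2 →
    ∀ ψ : E d → ℂ, ContDiff ℝ ∞ ψ → HasCompactSupport ψ → (∀ x, r < ‖x‖ → ψ x = 0) →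
    ∃ C : ℝ, 0 < C ∧ ∀ (A T : ℝ) (p11 p12 p21 p22 s1 s2 f g : E d → ℂ), 1 ≤ A → 0 ≤ T →
      Sys α β n R2 A T p11 p12 p21 p22 s1 s2 f g →
      FB k (fun x => ψ x * f x)
        (C * A ^ k * ((∫ x in closedBall (0 : E d) R2, (‖f x‖ + ‖g x‖)) + T)) ∧
      FB k (fun x => ψ x * g x)
        (C * A ^ k * ((∫ x in closedBall (0 : E d) R2, (‖f x‖ + ‖g x‖)) + T)) := by
  intro k
  induction k with
  | zero =>
    intro _ r hr hrR ψ hψ hc h0
    obtain ⟨M, hM⟩ := hc.exists_bound_of_continuous hψ.continuous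
    have hM0 : 0 ≤ M := (norm_nonneg _).trans (hM 0)
    refine ⟨M + 1, by positivity, ?_⟩
    intro A T p11 p12 p21 p22 s1 s2 f g hA hT hsys
    have hcf : Continuous f := hsys.hf.continuous
    have hcg : Continuous g := hsys.hg.continuous
    have hI : IntegrableOn (fun x => ‖f x‖ + ‖g x‖) (closedBall (0 : E d) R2) :=
      (hcf.norm.add hcg.norm).continuousOn.integrableOn_compact (isCompact_closedBall _ _)
    have hN0 : 0 ≤ ∫ x in closedBall (0 : E d) R2, (‖f x‖ + ‖g x‖) :=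
      integral_nonneg fun x => by positivity
    have key : ∀ u : E d → ℂ, Continuous u → (∀ x, ‖u x‖ ≤ ‖f x‖ + ‖g x‖) →
        FB 0 (fun x => ψ x * u x)
          ((M + 1) * A ^ 0 * ((∫ x in closedBall (0 : E d) R2, (‖f x‖ + ‖g x‖)) + T)) := by
      intro u hu hle
      have hint : Integrable (fun x => ψ x * u x) :=
        (hψ.continuous.mul hu).integrable_of_hasCompactSupport hc.mul_right
      apply (FB.zero hint).mono
      have hz : ∀ x, x ∉ closedBall (0 : E d) R2 → ‖ψ x * u x‖ = 0 := by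
        intro x hx
        rw [mem_closedBall_zero_iff, not_le] at hx
        rw [h0 x (by linarith), zero_mul, norm_zero]
      rw [← setIntegral_eq_integral_of_forall_compl_eq_zero hz]
      calc ∫ x in closedBall (0 : E d) R2, ‖ψ x * u x‖
          ≤ ∫ x in closedBall (0 : E d) R2, M * (‖f x‖ + ‖g x‖) := by
            apply setIntegral_mono_on hint.norm.integrableOn (hI.const_mul M)
              measurableSet_closedBall
            intro x _
            rw [norm_mul]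
            exact mul_le_mul (hM x) (hle x) (norm_nonneg _) hM0
        _ = M * ∫ x in closedBall (0 : E d) R2, (‖f x‖ + ‖g x‖) := integral_const_mul _ _
        _ ≤ (M + 1) * A ^ 0 * ((∫ x in closedBall (0 : E d) R2, (‖f x‖ + ‖g x‖)) + T) := by
            rw [pow_zero, mul_one]
            have : 0 ≤ M * T := by positivity
            nlinarith
    exact ⟨key f hcf fun x => by linarith [norm_nonneg (g x)],
      key g hcg fun x => by linarith [norm_nonneg (f x)]⟩
  | succ k ih =>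
    intro hn r hr hrR ψ hψ hc h0
    have hnk : nd (E d) k ≤ n := by
      unfold nd at hn ⊢
      omega
    have hkn : k ≤ n := by
      unfold nd at hn
      omega
    -- intermediate cut-off
    obtain ⟨ψ₀, q1, q2, q3, q4, -⟩ := exists_cut (d := d) (a := r) (b := (r + R2) / 2) hr
      (by linarith)
    obtain ⟨C0, hC0, IH⟩ := ih hnk ((r + R2) / 2) (by linarith) (by linarith) ψ₀ q1 q2 q4
    obtain ⟨Ca, hCa, Sa⟩ := step k α hψ hc (fun x hx => h0 x (by
      rwa [mem_closedBall_zero_iff, not_le] at hx))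
    obtain ⟨Cb, hCb, Sb⟩ := step k β hψ hc (fun x hx => h0 x (by
      rwa [mem_closedBall_zero_iff, not_le] at hx))
    obtain ⟨Cw, hCw, W⟩ := wiener_cut k hψ hc h0
    obtain ⟨Cs, hCs, FS⟩ := FB_cut k hψ hc h0
    refine ⟨(Ca + Cb) * C0 + 2 * (2 ^ k * Cw * C0) + Cs, by positivity, ?_⟩
    intro A T p11 p12 p21 p22 s1 s2 f g hA hT hsys
    have hA0 : 0 ≤ A := by linarith
    obtain ⟨F1, F2⟩ := IH A T p11 p12 p21 p22 s1 s2 f g hA hT hsys
    set N : ℝ := ∫ x in closedBall (0 : E d) R2, (‖f x‖ + ‖g x‖) with hN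
    have hN0 : 0 ≤ N := integral_nonneg fun x => by positivity
    have hmulψ : ∀ (p u : E d → ℂ), (fun x => (ψ x * p x) * (ψ₀ x * u x))
        = fun x => (ψ x * p x) * u x := by
      intro p u
      ext x
      by_cases hx : ‖x‖ ≤ r
      · rw [q3 x hx, one_mul]
      · rw [h0 x (not_le.mp hx)]
        ring
    have hrR2 : ∀ x : E d, ‖x‖ ≤ r → ‖x‖ ≤ R2 := fun x hx => hx.trans hrR.le
    have Wp : ∀ p : E d → ℂ, DB n R2 A p → WienerRep k (fun x => ψ x * p x) (Cw * A) := by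
      intro p hp
      apply W p A hA0 (hp.1.of_le (by exact_mod_cast hnk))
      intro i hi x hx
      exact hp.2 i (hi.trans hnk) x (hrR2 x hx)
    have FSs : ∀ p : E d → ℂ, DB n R2 T p → FB k (fun x => ψ x * p x) (Cs * T) := by
      intro p hp
      apply FS p T hT (hp.1.of_le (by exact_mod_cast hkn))
      intro i hi x hx
      exact hp.2 i (hi.trans hkn) x (hrR2 x hx)
    have hprod : ∀ (p u : E d → ℂ), DB n R2 A p →
        FB k (fun x => ψ₀ x * u x) (C0 * A ^ k * (N + T)) →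
        FB k (fun x => ψ x * p x * u x) (2 ^ k * (Cw * A) * (C0 * A ^ k * (N + T))) := by
      intro p u hp hu
      have := FB.mul (Wp p hp) hu
      rwa [hmulψ p u] at this
    have hsrc : ∀ (pa pb s : E d → ℂ), DB n R2 A pa → DB n R2 A pb → DB n R2 T s →
        FB k (fun x => ψ x * (pa x * f x + pb x * g x + s x))
          (2 * (2 ^ k * (Cw * A) * (C0 * A ^ k * (N + T))) + Cs * T) := by
      intro pa pb s ha hb hs
      have := ((hprod pa f ha F1).add (hprod pb g hb F2)).add (FSs s hs)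
      have he : (fun x => ψ x * (pa x * f x + pb x * g x + s x))
          = fun x => (ψ x * pa x * f x + ψ x * pb x * g x) + ψ x * s x := by
        ext x
        ring
      rw [he]
      apply this.mono
      apply le_of_eq
      ring
    have hApow : 1 ≤ A ^ (k + 1) := one_le_pow₀ hA
    have hAk : 0 ≤ A ^ k := by positivity
    have hAle : A ^ k ≤ A ^ (k + 1) := pow_le_pow_right₀ hA (Nat.le_succ k)
    have hfinal : ∀ Cx : ℝ, 0 ≤ Cx → Cx ≤ Ca + Cb →
        Cx * (C0 * A ^ k * (N + T)) + (2 * (2 ^ k * (Cw * A) * (C0 * A ^ k * (N + T))) + Cs * T)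
        ≤ ((Ca + Cb) * C0 + 2 * (2 ^ k * Cw * C0) + Cs) * A ^ (k + 1) * (N + T) := by
      intro Cx hx0 hx
      have e1 : Cx * (C0 * A ^ k * (N + T)) ≤ (Ca + Cb) * C0 * A ^ (k + 1) * (N + T) := by
        calc Cx * (C0 * A ^ k * (N + T)) ≤ (Ca + Cb) * (C0 * A ^ (k + 1) * (N + T)) := by gcongr
          _ = _ := by ring
      have e2 : 2 * (2 ^ k * (Cw * A) * (C0 * A ^ k * (N + T)))
          = 2 * (2 ^ k * Cw * C0) * A ^ (k + 1) * (N + T) := by ring
      have e3 : Cs * T ≤ Cs * A ^ (k + 1) * (N + T) := by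
        calc Cs * T ≤ Cs * (N + T) := by
              gcongr
              linarith
          _ = Cs * 1 * (N + T) := by ring
          _ ≤ Cs * A ^ (k + 1) * (N + T) := by gcongr
      calc _ ≤ (Ca + Cb) * C0 * A ^ (k + 1) * (N + T)
            + (2 * (2 ^ k * Cw * C0) * A ^ (k + 1) * (N + T) + Cs * A ^ (k + 1) * (N + T)) := by
            rw [e2]
            exact add_le_add e1 (add_le_add le_rfl e3)
        _ = _ := by ring
    constructor
    · have := Sa ψ₀ f (fun x => p11 x * f x + p12 x * g x + s1 x) _ _ q3 hsys.hf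
        (fun x hx => hsys.eqf x (hrR2 x hx)) F1 (hsrc p11 p12 s1 hsys.h11 hsys.h12 hsys.hs1)
      exact this.mono (hfinal Ca hCa (by linarith))
    · have := Sb ψ₀ g (fun x => p21 x * f x + p22 x * g x + s2 x) _ _ q3 hsys.hg
        (fun x hx => hsys.eqg x (hrR2 x hx)) F2 (hsrc p21 p22 s2 hsys.h21 hsys.h22 hsys.hs2)
      exact this.mono (hfinal Cb hCb (by linarith))

/-- **X6 (interior regularity).**  Wiener norm of `q f`, `q g` (`q` supported in the ball of radius
`R1 < R2`) in terms of the `L¹` norm of `(f,g)` on the ball of radius `R2`. -/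
theorem interior (d s : ℕ) (α β : ℂ) {R1 R2 : ℝ} (h1 : 0 < R1) (h12 : R1 < R2) :
    ∃ (n : ℕ) (C : ℝ), 0 < C ∧ nd (E d) s ≤ n ∧
      ∀ (A T : ℝ) (p11 p12 p21 p22 s1 s2 f g : E d → ℂ), 1 ≤ A → 0 ≤ T →
      Sys α β n R2 A T p11 p12 p21 p22 s1 s2 f g →
      ∀ (q : E d → ℂ) (A1 : ℝ), 0 ≤ A1 → ContDiff ℝ n q → (∀ x, R1 < ‖x‖ → q x = 0) →
      (∀ i ≤ n, ∀ x, ‖iteratedFDeriv ℝ i q x‖ ≤ A1) →
      WienerRep s (fun x => q x * f x)
        (C * A1 * A ^ n * ((∫ x in closedBall (0 : E d) R2, (‖f x‖ + ‖g x‖)) + T)) ∧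
      WienerRep s (fun x => q x * g x)
        (C * A1 * A ^ n * ((∫ x in closedBall (0 : E d) R2, (‖f x‖ + ‖g x‖)) + T)) := by
  set k : ℕ := nd (E d) s with hk
  set n : ℕ := nd (E d) k with hn
  have hkn : k ≤ n := by
    rw [hn]
    unfold nd
    omega
  set r : ℝ := (R1 + R2) / 2 with hr
  obtain ⟨ψ, q1, q2, q3, q4, -⟩ := exists_cut (d := d) (a := R1) (b := r) h1 (by
    rw [hr]
    linarith)
  obtain ⟨C0, hC0, IH⟩ := iter (d := d) α β (R2 := R2) n k le_rfl r (by rw [hr]; linarith)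
    (by rw [hr]; linarith) ψ q1 q2 q4
  obtain ⟨C1, hC1, H1⟩ := WienerRep.of_supp (E d) ℂ k R1
  obtain ⟨C2, hC2, H2⟩ := FB.wiener (d := d) s
  refine ⟨n, C2 * (2 ^ k * C1 * C0), by positivity, hkn, ?_⟩
  intro A T p11 p12 p21 p22 s1 s2 f g hA hT hsys q A1 hA1 hq hq0 hqb
  obtain ⟨F1, F2⟩ := IH A T p11 p12 p21 p22 s1 s2 f g hA hT hsys
  set N : ℝ := ∫ x in closedBall (0 : E d) R2, (‖f x‖ + ‖g x‖) with hN
  have hN0 : 0 ≤ N := integral_nonneg fun x => by positivity
  have hA0 : 0 ≤ A := by linarith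
  have Wq : WienerRep k q (C1 * A1) := H1 q A1 hA1 hq hq0 hqb
  have key : ∀ u : E d → ℂ, Continuous u →
      FB k (fun x => ψ x * u x) (C0 * A ^ k * (N + T)) →
      WienerRep s (fun x => q x * u x) (C2 * (2 ^ k * C1 * C0) * A1 * A ^ n * (N + T)) := by
    intro u hu hF
    have h := FB.mul Wq hF
    have he : (fun x => q x * (ψ x * u x)) = fun x => q x * u x := by
      ext x
      by_cases hx : ‖x‖ ≤ R1
      · rw [q3 x hx, one_mul]
      · rw [hq0 x (not_le.mp hx), zero_mul, zero_mul]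
    rw [he] at h
    have := H2 _ _ (hq.continuous.mul hu) h
    apply this.mono
    have hp : A ^ k ≤ A ^ n := pow_le_pow_right₀ hA hkn
    calc C2 * (2 ^ k * (C1 * A1) * (C0 * A ^ k * (N + T)))
        = C2 * (2 ^ k * C1 * C0) * A1 * A ^ k * (N + T) := by ring
      _ ≤ _ := by gcongr
  exact ⟨key f hsys.hf.continuous F1, key g hsys.hg.continuous F2⟩

end Vale.Agent.P139.H305
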