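import Vale.Agent.P139.H305.X6

/-!
# P139 / H305 : X6 specialised to the linearised operator
-/

open MeasureTheory Real FourierTransform Filter Topology Metric
open scoped ContDiff ComplexConjugate

namespace Vale.Agent.P139.H305

open Vale.Agent.P139.BU Vale.Agent.P139.H201

variable {d : ℕ}

lemma DB.mono {n : ℕ} {R A A' : ℝ} {p : E d → ℂ} (h : DB n R A p) (hA : A ≤ A') : DB n R A' p :=
  ⟨h.1, fun i hi x hx => (h.2 i hi x hx).trans hA⟩

lemma DB.const_mul {n : ℕ} {R A : ℝ} {p : E d → ℂ} (h : DB n R A p) (c : ℂ) :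
    DB n R (‖c‖ * A) (fun x => c * p x) := by
  refine ⟨contDiff_const.mul h.1, fun i hi x hx => ?_⟩
  have hi' : (i : ℕ∞ω) ≤ n := by exact_mod_cast hi
  have : iteratedFDeriv ℝ i (fun x => c * p x) x = c • iteratedFDeriv ℝ i p x := by
    have := iteratedFDeriv_const_smul_apply (𝕜 := ℝ) (a := c) (x := x)
      (h.1.contDiffAt.of_le hi')
    exact this
  rw [this, norm_smul]
  gcongr
  exact h.2 i hi x hx

lemma DB.add {n : ℕ} {R A B : ℝ} {p q : E d → ℂ} (h : DB n R A p) (h' : DB n R B q) :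
    DB n R (A + B) (fun x => p x + q x) := by
  refine ⟨h.1.add h'.1, fun i hi x hx => ?_⟩
  have hi' : (i : ℕ∞ω) ≤ n := by exact_mod_cast hi
  have : iteratedFDeriv ℝ i (fun x => p x + q x) x
      = iteratedFDeriv ℝ i p x + iteratedFDeriv ℝ i q x := by
    exact iteratedFDeriv_add_apply (h.1.contDiffAt.of_le hi') (h'.1.contDiffAt.of_le hi')
  rw [this]
  exact (norm_add_le _ _).trans (add_le_add (h.2 i hi x hx) (h'.2 i hi x hx))

lemma DB.const {n : ℕ} {R : ℝ} (c : ℂ) : DB n R ‖c‖ (fun _ : E d => c) := by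
  refine ⟨contDiff_const, fun i _ x _ => ?_⟩
  rcases Nat.eq_zero_or_pos i with rfl | hi
  · simp
  · rw [iteratedFDeriv_const_of_ne hi.ne']
    simp

/-- The pointwise eigenvalue equation (with sources) as a system of the form `Sys`.
`V1 = W1 (Q)`, `V2 = W2 (Q)`. -/
lemma sys_of_LL {m : ℕ} {w : ℝ} {Q f g e1 e2 : E d → ℂ} {lam : ℂ} {n : ℕ} {R A T : ℝ}
    (hA : 1 ≤ A) (hT : 0 ≤ T)
    (hf : ContDiff ℝ 2 f) (hg : ContDiff ℝ 2 g)
    (hV1 : DB n R A (fun x => W1 m (Q x))) (hV2 : DB n R A (fun x => W2 m (Q x)))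
    (hV3 : DB n R A (fun x => conj (W2 m (Q x))))
    (he1 : DB n R T e1) (he2 : DB n R T e2)
    (h1 : ∀ x, ‖x‖ ≤ R → LL1 m w Q f g x = lam * f x + e1 x)
    (h2 : ∀ x, ‖x‖ ≤ R → LL2 m w Q f g x = lam * g x + e2 x) :
    Sys (-(Complex.I / 2)) (Complex.I / 2) n R
      ((‖lam‖ + |w| + |aa m| + m + 1) * A) T
      (fun x => -(Complex.I * (lam + aa m - Complex.I * w)) + ((m : ℂ) + 1) * W1 m (Q x))
      (fun x => (m : ℂ) * W2 m (Q x))
      (fun x => (m : ℂ) * conj (W2 m (Q x)))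
      (fun x => Complex.I * (lam + aa m + Complex.I * w) + ((m : ℂ) + 1) * W1 m (Q x))
      (fun x => -(Complex.I * e1 x)) (fun x => Complex.I * e2 x) f g := by
  have hm0 : (0:ℝ) ≤ m := Nat.cast_nonneg m
  have hA0 : 0 ≤ A := by linarith
  have hnm : ‖((m : ℂ) + 1)‖ = (m:ℝ) + 1 := by
    have : ((m : ℂ) + 1) = (((m : ℝ) + 1 : ℝ) : ℂ) := by push_cast; rfl
    rw [this, Complex.norm_real, Real.norm_of_nonneg (by positivity)]
  have hnm' : ‖(m : ℂ)‖ = (m:ℝ) := by simp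
  have hk1 : ‖-(Complex.I * (lam + aa m - Complex.I * w))‖ ≤ ‖lam‖ + |aa m| + |w| := by
    rw [norm_neg, norm_mul, Complex.norm_I, one_mul]
    refine (norm_sub_le _ _).trans (add_le_add ((norm_add_le _ _).trans ?_) ?_)
    · rw [Complex.norm_real, Real.norm_eq_abs]
    · rw [norm_mul, Complex.norm_I, one_mul, Complex.norm_real, Real.norm_eq_abs]
  have hk2 : ‖Complex.I * (lam + aa m + Complex.I * w)‖ ≤ ‖lam‖ + |aa m| + |w| := by
    rw [norm_mul, Complex.norm_I, one_mul]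
    refine (norm_add_le _ _).trans (add_le_add ((norm_add_le _ _).trans ?_) ?_)
    · rw [Complex.norm_real, Real.norm_eq_abs]
    · rw [norm_mul, Complex.norm_I, one_mul, Complex.norm_real, Real.norm_eq_abs]
  have hl0 : 0 ≤ ‖lam‖ + |aa m| + |w| := by positivity
  refine ⟨hf, hg, ?_, ?_, ?_, ?_, ?_, ?_, ?_, ?_⟩
  · apply ((DB.const _).add (hV1.const_mul _)).mono
    rw [hnm]
    nlinarith [norm_nonneg lam, abs_nonneg w, abs_nonneg (aa m)]
  · apply (hV2.const_mul _).mono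
    rw [hnm']
    nlinarith [norm_nonneg lam, abs_nonneg w, abs_nonneg (aa m)]
  · apply (hV3.const_mul _).mono
    rw [hnm']
    nlinarith [norm_nonneg lam, abs_nonneg w, abs_nonneg (aa m)]
  · apply ((DB.const _).add (hV1.const_mul _)).mono
    rw [hnm]
    nlinarith [norm_nonneg lam, abs_nonneg w, abs_nonneg (aa m)]
  · have := he1.const_mul (-Complex.I)
    simp only [norm_neg, Complex.norm_I, one_mul, neg_mul] at this
    exact this
  · have := he2.const_mul (Complex.I)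
    simp only [Complex.norm_I, one_mul] at this
    exact this
  · intro x hx
    have := h1 x hx
    unfold LL1 at this
    have hI : Complex.I * Complex.I = -1 := Complex.I_mul_I
    linear_combination (-Complex.I) * this + (lap f x - ((m:ℂ) + 1) * W1 m (Q x) * f x
      - (m:ℂ) * W2 m (Q x) * g x) * hI
  · intro x hx
    have := h2 x hx
    unfold LL2 at this
    have hI : Complex.I * Complex.I = -1 := Complex.I_mul_I
    linear_combination (Complex.I) * this + (lap g x - ((m:ℂ) + 1) * W1 m (Q x) * g x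
      - (m:ℂ) * conj (W2 m (Q x)) * f x) * hI

/-- **X6 for the linearised operator.** -/
theorem interior_LL (d s : ℕ) {R1 R2 : ℝ} (h1 : 0 < R1) (h12 : R1 < R2) :
    ∃ (n : ℕ) (C : ℝ), 0 < C ∧ nd (E d) s ≤ n ∧
      ∀ (m : ℕ) (w : ℝ) (lam : ℂ) (Q f g e1 e2 : E d → ℂ) (A T : ℝ), 1 ≤ A → 0 ≤ T →
      ContDiff ℝ 2 f → ContDiff ℝ 2 g →
      DB n R2 A (fun x => W1 m (Q x)) → DB n R2 A (fun x => W2 m (Q x)) →
      DB n R2 A (fun x => conj (W2 m (Q x))) → DB n R2 T e1 → DB n R2 T e2 →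
      (∀ x, ‖x‖ ≤ R2 → LL1 m w Q f g x = lam * f x + e1 x) →
      (∀ x, ‖x‖ ≤ R2 → LL2 m w Q f g x = lam * g x + e2 x) →
      ∀ (q : E d → ℂ) (A1 : ℝ), 0 ≤ A1 → ContDiff ℝ n q → (∀ x, R1 < ‖x‖ → q x = 0) →
      (∀ i ≤ n, ∀ x, ‖iteratedFDeriv ℝ i q x‖ ≤ A1) →
      WienerRep s (fun x => q x * f x) (C * A1 * ((‖lam‖ + |w| + |aa m| + m + 1) * A) ^ n *
        ((∫ x in closedBall (0 : E d) R2, (‖f x‖ + ‖g x‖)) + T)) ∧
      WienerRep s (fun x => q x * g x) (C * A1 * ((‖lam‖ + |w| + |aa m| + m + 1) * A) ^ n *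
        ((∫ x in closedBall (0 : E d) R2, (‖f x‖ + ‖g x‖)) + T)) := by
  obtain ⟨n, C, hC, hn, H⟩ := interior d s (-(Complex.I / 2)) (Complex.I / 2) h1 h12
  refine ⟨n, C, hC, hn, ?_⟩
  intro m w lam Q f g e1 e2 A T hA hT hf hg hV1 hV2 hV3 he1 he2 hL1 hL2 q A1 hA1 hq hq0 hqb
  have hm0 : (0:ℝ) ≤ m := Nat.cast_nonneg m
  have hA' : 1 ≤ (‖lam‖ + |w| + |aa m| + m + 1) * A := by
    have : 1 ≤ ‖lam‖ + |w| + |aa m| + m + 1 := by
      linarith [norm_nonneg lam, abs_nonneg w, abs_nonneg (aa m)]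
    nlinarith
  exact H _ T _ _ _ _ _ _ f g hA' hT
    (sys_of_LL hA hT hf hg hV1 hV2 hV3 he1 he2 hL1 hL2) q A1 hA1 hq hq0 hqb

end Vale.Agent.P139.H305
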