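import Vale.Agent.P139.H305.X6LL

/-!
# P139 / H305 : X6 in the form requested by the exterior block

`I lap f - (1/2) eul f + V1 f + V2 g = S1`, `-I lap g - (1/2) eul g + V3 f + V4 g = S2` on an open
ball, bounds of the `L²` norm on the ball.
-/

open MeasureTheory Real FourierTransform Filter Topology Metric
open scoped ContDiff ComplexConjugate

namespace Vale.Agent.P139.H305

open Vale.Agent.P139.BU Vale.Agent.P139.H201

variable {d : ℕ}

/-- `L¹` norm on a closed ball in terms of the `L²` norm on a larger open ball. -/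
lemma l1_le_l2 (d : ℕ) {r R : ℝ} (hrR : r < R) : ∃ C : ℝ, 0 < C ∧
    ∀ (f g : E d → ℂ) (N0 : ℝ), Continuous f → Continuous g → 0 ≤ N0 →
      ∫ y in ball (0 : E d) R, (‖f y‖ ^ 2 + ‖g y‖ ^ 2) ≤ N0 ^ 2 →
      ∫ y in closedBall (0 : E d) r, (‖f y‖ + ‖g y‖) ≤ C * N0 := by
  set V : ℝ := (volume (closedBall (0 : E d) r)).toReal with hV
  have hVfin : volume (closedBall (0 : E d) r) ≠ ⊤ := measure_closedBall_lt_top.ne
  have hV0 : 0 ≤ V := ENNReal.toReal_nonneg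
  refine ⟨V + 1, by positivity, ?_⟩
  intro f g N0 hf hg hN0 h
  have hI2 : IntegrableOn (fun y => ‖f y‖ ^ 2 + ‖g y‖ ^ 2) (closedBall (0 : E d) R) :=
    ((hf.norm.pow 2).add (hg.norm.pow 2)).continuousOn.integrableOn_compact
      (isCompact_closedBall _ _)
  have hI1 : IntegrableOn (fun y => ‖f y‖ + ‖g y‖) (closedBall (0 : E d) r) :=
    (hf.norm.add hg.norm).continuousOn.integrableOn_compact (isCompact_closedBall _ _)
  have hsub : closedBall (0 : E d) r ⊆ ball (0 : E d) R := closedBall_subset_ball hrR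
  have hIr : IntegrableOn (fun y => ‖f y‖ ^ 2 + ‖g y‖ ^ 2) (closedBall (0 : E d) r) :=
    hI2.mono_set (hsub.trans ball_subset_closedBall)
  have hle : ∫ y in closedBall (0 : E d) r, (‖f y‖ ^ 2 + ‖g y‖ ^ 2) ≤ N0 ^ 2 := by
    refine (setIntegral_mono_set (hI2.mono_set ball_subset_closedBall) ?_ ?_).trans h
    · exact Eventually.of_forall fun y => by positivity
    · exact hsub.eventuallyLE
  apply le_of_forall_pos_le_add
  intro ε hε
  set t : ℝ := N0 + ε / (V + 1) with ht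
  have ht0 : 0 < t := by positivity
  have hN0t : N0 ≤ t := by
    rw [ht]
    have : 0 < ε / (V + 1) := by positivity
    linarith
  have hpt : ∀ y, ‖f y‖ + ‖g y‖ ≤ t + (2 * t)⁻¹ * (‖f y‖ ^ 2 + ‖g y‖ ^ 2) := by
    intro y
    have h1 : (2 * t)⁻¹ * (2 * t) = 1 := inv_mul_cancel₀ (by positivity)
    have hi : 0 < (2 * t)⁻¹ := by positivity
    have e1 : 0 ≤ (2 * t)⁻¹ * (‖f y‖ - t) ^ 2 := by positivity
    have e2 : 0 ≤ (2 * t)⁻¹ * (‖g y‖ - t) ^ 2 := by positivity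
    have e3 : (2 * t)⁻¹ * (‖f y‖ - t) ^ 2
        = (2 * t)⁻¹ * ‖f y‖ ^ 2 - ((2 * t)⁻¹ * (2 * t)) * ‖f y‖ + ((2 * t)⁻¹ * (2 * t)) * t / 2 := by
      ring
    have e4 : (2 * t)⁻¹ * (‖g y‖ - t) ^ 2
        = (2 * t)⁻¹ * ‖g y‖ ^ 2 - ((2 * t)⁻¹ * (2 * t)) * ‖g y‖ + ((2 * t)⁻¹ * (2 * t)) * t / 2 := by
      ring
    rw [e3, h1] at e1
    rw [e4, h1] at e2
    linarith
  calc ∫ y in closedBall (0 : E d) r, (‖f y‖ + ‖g y‖)
      ≤ ∫ y in closedBall (0 : E d) r, (t + (2 * t)⁻¹ * (‖f y‖ ^ 2 + ‖g y‖ ^ 2)) := by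
        apply setIntegral_mono_on hI1 _ measurableSet_closedBall
        · intro y _
          exact hpt y
        · exact (integrableOn_const (hs := hVfin)).add (hIr.const_mul _)
    _ = V * t + (2 * t)⁻¹ * ∫ y in closedBall (0 : E d) r, (‖f y‖ ^ 2 + ‖g y‖ ^ 2) := by
        have hc : Integrable (fun _ : E d => t) (volume.restrict (closedBall (0 : E d) r)) :=
          integrableOn_const (hs := hVfin)
        have hI : Integrable (fun y => (2 * t)⁻¹ * (‖f y‖ ^ 2 + ‖g y‖ ^ 2))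
          (volume.restrict (closedBall (0 : E d) r)) := hIr.const_mul _
        rw [integral_add hc hI, integral_const_mul, setIntegral_const, smul_eq_mul]
        rfl
    _ ≤ V * t + (2 * t)⁻¹ * t ^ 2 := by
        have : N0 ^ 2 ≤ t ^ 2 := by gcongr
        gcongr
        exact hle.trans this
    _ = V * t + t / 2 := by
        field_simp
    _ ≤ (V + 1) * t := by nlinarith
    _ = (V + 1) * N0 + ε := by
        rw [ht]
        field_simp

/-- **X6, form of the exterior block.** -/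
theorem interior_ext (d s : ℕ) {ρ R2 : ℝ} (h0 : 0 < ρ) (h02 : ρ < R2) :
    ∃ (N : ℕ) (C : ℝ), 0 < C ∧ nd (E d) s ≤ N ∧
      ∀ (χ : E d → ℂ) (A1 : ℝ), 0 ≤ A1 → ContDiff ℝ N χ → (∀ x, ρ < ‖x‖ → χ x = 0) →
      (∀ i ≤ N, ∀ x, ‖iteratedFDeriv ℝ i χ x‖ ≤ A1) →
      ∀ (A : ℝ) (V1 V2 V3 V4 f g S1 S2 : E d → ℂ) (B N0 : ℝ), 1 ≤ A → 0 ≤ B → 0 ≤ N0 →
      (∀ V ∈ ({V1, V2, V3, V4} : Set (E d → ℂ)), ContDiff ℝ N V ∧
        ∀ i ≤ N, ∀ y, ‖y‖ < R2 → ‖iteratedFDeriv ℝ i V y‖ ≤ A) →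
      (∀ S ∈ ({S1, S2} : Set (E d → ℂ)), ContDiff ℝ N S ∧
        ∀ i ≤ N, ∀ y, ‖y‖ < R2 → ‖iteratedFDeriv ℝ i S y‖ ≤ B) →
      ContDiff ℝ 2 f → ContDiff ℝ 2 g →
      (∀ y, ‖y‖ < R2 → Complex.I * lap f y - (1 / 2) * eul f y + V1 y * f y + V2 y * g y
        = S1 y) →
      (∀ y, ‖y‖ < R2 → -Complex.I * lap g y - (1 / 2) * eul g y + V3 y * f y + V4 y * g y
        = S2 y) →
      ∫ y in ball (0 : E d) R2, (‖f y‖ ^ 2 + ‖g y‖ ^ 2) ≤ N0 ^ 2 →
      WienerRep s (fun x => χ x * f x) (C * A1 * A ^ N * (N0 + B)) ∧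
      WienerRep s (fun x => χ x * g x) (C * A1 * A ^ N * (N0 + B)) := by
  set R : ℝ := (ρ + R2) / 2 with hR
  have hρR : ρ < R := by rw [hR]; linarith
  have hRR2 : R < R2 := by rw [hR]; linarith
  obtain ⟨n, C, hC, hn, H⟩ := interior d s (-(Complex.I / 2)) (Complex.I / 2) h0 hρR
  obtain ⟨C1, hC1, H1⟩ := l1_le_l2 d hRR2
  refine ⟨n, C * (C1 + 1), by positivity, hn, ?_⟩
  intro χ A1 hA1 hχ hχ0 hχb A V1 V2 V3 V4 f g S1 S2 B N0 hA hB hN0 hV hS hf hg e1 e2 hL2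
  have hA0 : 0 ≤ A := by linarith
  have hDB : ∀ V ∈ ({V1, V2, V3, V4} : Set (E d → ℂ)), DB n R A V := fun V hVm =>
    ⟨(hV V hVm).1, fun i hi x hx => (hV V hVm).2 i hi x (by linarith)⟩
  have hDS : ∀ S ∈ ({S1, S2} : Set (E d → ℂ)), DB n R B S := fun S hSm =>
    ⟨(hS S hSm).1, fun i hi x hx => (hS S hSm).2 i hi x (by linarith)⟩
  have hmulI : ∀ (c : ℂ), ‖c‖ = 1 → ∀ (V : E d → ℂ) (K : ℝ), DB n R K V →
      DB n R K (fun x => c * V x) := by
    intro c hc V K hVK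
    have := hVK.const_mul c
    rwa [hc, one_mul] at this
  have hI1 : ‖Complex.I‖ = 1 := Complex.norm_I
  have hI2 : ‖-Complex.I‖ = 1 := by rw [norm_neg, Complex.norm_I]
  have hsys : Sys (-(Complex.I / 2)) (Complex.I / 2) n R A B
      (fun x => Complex.I * V1 x) (fun x => Complex.I * V2 x)
      (fun x => -Complex.I * V3 x) (fun x => -Complex.I * V4 x)
      (fun x => -Complex.I * S1 x) (fun x => Complex.I * S2 x) f g := by
    refine ⟨hf, hg, hmulI _ hI1 _ _ (hDB V1 (by simp)), hmulI _ hI1 _ _ (hDB V2 (by simp)),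
      hmulI _ hI2 _ _ (hDB V3 (by simp)), hmulI _ hI2 _ _ (hDB V4 (by simp)),
      hmulI _ hI2 _ _ (hDS S1 (by simp)), hmulI _ hI1 _ _ (hDS S2 (by simp)), ?_, ?_⟩
    · intro x hx
      have := e1 x (by linarith)
      have hI : Complex.I * Complex.I = -1 := Complex.I_mul_I
      linear_combination (-Complex.I) * this + lap f x * hI
    · intro x hx
      have := e2 x (by linarith)
      have hI : Complex.I * Complex.I = -1 := Complex.I_mul_I
      linear_combination Complex.I * this + lap g x * hI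
  obtain ⟨w1, w2⟩ := H A B _ _ _ _ _ _ f g hA hB hsys χ A1 hA1 hχ hχ0 hχb
  have hle := H1 f g N0 hf.continuous hg.continuous hN0 hL2
  have hfin : C * A1 * A ^ n * ((∫ x in closedBall (0 : E d) R, (‖f x‖ + ‖g x‖)) + B)
      ≤ C * (C1 + 1) * A1 * A ^ n * (N0 + B) := by
    have h3 : (∫ x in closedBall (0 : E d) R, (‖f x‖ + ‖g x‖)) + B ≤ (C1 + 1) * (N0 + B) := by
      have : 0 ≤ C1 * B := by positivity
      nlinarith
    calc C * A1 * A ^ n * ((∫ x in closedBall (0 : E d) R, (‖f x‖ + ‖g x‖)) + B)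
        ≤ C * A1 * A ^ n * ((C1 + 1) * (N0 + B)) := by gcongr
      _ = _ := by ring
  exact ⟨w1.mono hfin, w2.mono hfin⟩

end Vale.Agent.P139.H305
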